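import Vale.Agent.P181.ST.Defs

set_option autoImplicit false

/-!
# P181, ST: block T7: partitions without parts equal to one
-/

namespace Vale.Agent.P181.ST.H410

open Vale.Agent.P181.ST
open Vale.Agent.P181.SZ (PT)

theorem mem_PT' {w : ℕ} {k : Multiset ℕ} : k ∈ PT w ↔ k.sum = w ∧ ∀ x ∈ k, 2 ≤ x := by
  unfold PT
  rw [Finset.mem_filter, Finset.mem_image]
  constructor
  · rintro ⟨⟨π, -, rfl⟩, h2⟩
    exact ⟨π.parts_sum, h2⟩
  · rintro ⟨h1, h2⟩
    refine ⟨⟨⟨k, fun {i} hi => ?_, h1⟩, Finset.mem_univ _, rfl⟩, h2⟩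
    have := h2 i hi
    omega

theorem card_mul_le {n S : ℕ} {ρ : Multiset ℕ} (hρ : ρ.sum = n) :
    ((Finset.Ico S (2 * S)).filter (fun c => c ∈ ρ)).card * S ≤ n := by
  obtain ⟨A, hA⟩ : ∃ A, A = (Finset.Ico S (2 * S)).filter (fun c => c ∈ ρ) := ⟨_, rfl⟩
  rw [← hA]
  have h1 : A.val ≤ ρ := by
    rw [Finset.val_le_iff_val_subset]
    intro x hx
    rw [Finset.mem_val, hA] at hx
    exact (Finset.mem_filter.mp hx).2
  have h3 : A.val.sum ≤ ρ.sum := by
    obtain ⟨t, ht⟩ := Multiset.le_iff_exists_add.mp h1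
    rw [ht, Multiset.sum_add]
    omega
  rw [hρ] at h3
  have h4 : A.val.sum = A.sum (fun x => x) := by
    rw [Finset.sum, Multiset.map_id']
  have h5 : A.card * S ≤ A.sum (fun x => x) := by
    rw [← smul_eq_mul]
    apply Finset.card_nsmul_le_sum
    intro x hx
    rw [hA] at hx
    exact (Finset.mem_Ico.mp (Finset.mem_filter.mp hx).1).1
  omega

theorem step {S z : ℕ} (hS : 2 ≤ S) :
    S * (PT z).card ≤ ((z + 3 * S) / S) * (PT (z + 3 * S)).card := by
  have h1 : ((Finset.Ico S (2 * S)) ×ˢ (PT z)).card = S * (PT z).card := by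
    rw [Finset.card_product, Nat.card_Ico]
    congr 1
    omega
  rw [← h1]
  refine Finset.card_le_mul_card_image_of_maps_to
    (f := fun x : ℕ × Multiset ℕ => x.2 + {x.1, 3 * S - x.1}) ?_ _ ?_
  · rintro ⟨c, k⟩ hx
    rw [Finset.mem_product, Finset.mem_Ico, mem_PT'] at hx
    obtain ⟨⟨hc1, hc2⟩, hk1, hk2⟩ := hx
    simp only at hc1 hc2 hk1 hk2
    rw [mem_PT']
    constructor
    · simp only [Multiset.sum_add, Multiset.insert_eq_cons, Multiset.sum_cons,
        Multiset.sum_singleton]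
      omega
    · intro y hy
      simp only [Multiset.mem_add, Multiset.insert_eq_cons, Multiset.mem_cons,
        Multiset.mem_singleton] at hy
      rcases hy with hy | hy | hy
      · exact hk2 y hy
      · omega
      · omega
  · intro ρ hρ
    rw [mem_PT'] at hρ
    refine le_trans ?_ ((Nat.le_div_iff_mul_le (by omega)).mpr (card_mul_le (S := S) hρ.1))
    refine Finset.card_le_card_of_injOn (fun x => x.1) ?_ ?_
    · rintro ⟨c, k⟩ hx
      rw [Finset.mem_coe, Finset.mem_filter, Finset.mem_product] at hx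
      rw [Finset.mem_coe, Finset.mem_filter]
      refine ⟨hx.1.1, ?_⟩
      rw [← hx.2]
      simp
    · rintro ⟨c, k⟩ hx ⟨c', k'⟩ hy hxy
      rw [Finset.mem_coe, Finset.mem_filter] at hx hy
      have hc : c = c' := hxy
      subst hc
      have h5 : k + {c, 3 * S - c} = k' + {c, 3 * S - c} := hx.2.trans hy.2.symm
      rw [add_right_cancel h5]

theorem mono {z s : ℕ} (hs : 2 ≤ s) : (PT z).card ≤ (PT (z + s)).card := by
  refine Finset.card_le_card_of_injOn (fun k => s ::ₘ k) ?_ ?_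
  · intro k hk
    rw [Finset.mem_coe, mem_PT'] at hk
    rw [Finset.mem_coe, mem_PT']
    refine ⟨by rw [Multiset.sum_cons, hk.1]; omega, fun x hx => ?_⟩
    rw [Multiset.mem_cons] at hx
    rcases hx with hx | hx
    · omega
    · exact hk.2 x hx
  · intro k _ k' _ h
    exact (Multiset.cons_inj_right s).1 h

theorem step' {X S z : ℕ} (hS : 2 ≤ S) (h : X * (z + 3 * S) ≤ S ^ 2) :
    X * (PT z).card ≤ (PT (z + 3 * S)).card := by
  have h1 := step (z := z) hS
  obtain ⟨N, hN⟩ : ∃ N, N = (z + 3 * S) / S := ⟨_, rfl⟩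
  rw [← hN] at h1
  have hN0 : 0 < N := by rw [hN]; exact Nat.div_pos (by omega) (by omega)
  have h2 : X * N ≤ S := by
    have h3 : X * N * S ≤ S * S := by
      calc X * N * S = X * (N * S) := by ring
        _ ≤ X * (z + 3 * S) := by
            rw [hN]
            exact Nat.mul_le_mul_left _ (Nat.div_mul_le_self _ _)
        _ ≤ S ^ 2 := h
        _ = S * S := by ring
    exact Nat.le_of_mul_le_mul_right h3 (by omega)
  have h4 : N * (X * (PT z).card) ≤ N * (PT (z + 3 * S)).card := by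
    calc N * (X * (PT z).card) = (X * N) * (PT z).card := by ring
      _ ≤ S * (PT z).card := Nat.mul_le_mul_right _ h2
      _ ≤ _ := h1
  exact Nat.le_of_mul_le_mul_left h4 hN0

theorem growth (X K S z r : ℕ) (hS : 2 ≤ S) (hr : 3 * K * S + 2 ≤ r)
    (h : X * (z + r) ≤ S ^ 2) : X ^ K * (PT z).card ≤ (PT (z + r)).card := by
  induction K generalizing z r with
  | zero => simpa using mono (z := z) (s := r) (by omega)
  | succ K ih =>
    have hr1 : 3 * K * S + 2 + 3 * S ≤ r := by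
      calc 3 * K * S + 2 + 3 * S = 3 * (K + 1) * S + 2 := by ring
        _ ≤ r := hr
    obtain ⟨r', rfl⟩ : ∃ r', r = 3 * S + r' := ⟨r - 3 * S, by omega⟩
    have h1 : X * (z + 3 * S) ≤ S ^ 2 := by
      refine le_trans (Nat.mul_le_mul_left _ ?_) h
      omega
    have h2 := step' (z := z) hS h1
    have h3 := ih (z + 3 * S) r' (by omega) (by
      rw [add_assoc]
      exact h)
    calc X ^ (K + 1) * (PT z).card = X ^ K * (X * (PT z).card) := by ring
      _ ≤ X ^ K * (PT (z + 3 * S)).card := Nat.mul_le_mul_left _ h2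
      _ ≤ (PT (z + 3 * S + r')).card := h3
      _ = (PT (z + (3 * S + r'))).card := by rw [add_assoc]

/-- **(T7)** -/
theorem pureH : PureH := by
  intro w d X K Q s t hK hX hw hd hQ hst htw
  obtain ⟨r, rfl⟩ : ∃ r, t = s + r := ⟨t - s, by omega⟩
  have hdr : d ≤ r := by omega
  have hdw : d ≤ w := by omega
  have hX16 : 16 ≤ X := le_trans (by nlinarith) hX
  -- `d ≥ X ^ 4`
  have hd4 : X ^ 4 ≤ d := by
    have h1 : X ^ 4 * d ≤ d * d := by
      calc X ^ 4 * d ≤ X ^ 4 * w := Nat.mul_le_mul_left _ hdw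
        _ = w * X ^ 4 := by ring
        _ ≤ d ^ 2 := hw
        _ = d * d := by ring
    exact Nat.le_of_mul_le_mul_right h1 (by omega)
  obtain ⟨S, hS⟩ : ∃ S, S = d / (4 * K) := ⟨_, rfl⟩
  have hS1 : 4 * K * S ≤ d := by
    rw [hS]
    exact Nat.mul_div_le d (4 * K)
  have hS2 : d < 4 * K * (S + 1) := by
    rw [hS]
    have := Nat.lt_mul_div_succ d (show 0 < 4 * K by omega)
    exact this
  have hXX : X * X ≤ X ^ 4 := by
    calc X * X = X ^ 2 := by ring
      _ ≤ X ^ 4 := Nat.pow_le_pow_right (by omega) (by norm_num)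
  have hKX : 16 * K ≤ X := le_trans (by nlinarith) hX
  have hS8 : 8 ≤ S := by
    by_contra hc
    have h1 : 4 * K * (S + 1) ≤ 4 * K * 8 := Nat.mul_le_mul_left _ (by omega)
    have h2 : 16 * X ≤ X * X := Nat.mul_le_mul_right _ hX16
    omega
  have hr2 : 3 * K * S + 2 ≤ r := by
    have h1 : K * 8 ≤ K * S := Nat.mul_le_mul_left _ hS8
    have h2 : 3 * K * S = 3 * (K * S) := by ring
    have h3 : 4 * K * S = 4 * (K * S) := by ring
    omega
  have hS3 : X * w ≤ S ^ 2 := by
    have h1 : d ^ 2 ≤ (4 * K * (S + 1)) ^ 2 := Nat.pow_le_pow_left hS2.le 2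
    have h2 : S + 1 ≤ 2 * S := by omega
    have h3 : X * (w * X ^ 3) ≤ X * (4 * S ^ 2) := by
      calc X * (w * X ^ 3) = w * X ^ 4 := by ring
        _ ≤ d ^ 2 := hw
        _ ≤ (4 * K * (S + 1)) ^ 2 := h1
        _ ≤ (4 * K * (2 * S)) ^ 2 := by gcongr
        _ = (16 * K ^ 2) * (4 * S ^ 2) := by ring
        _ ≤ X * (4 * S ^ 2) := Nat.mul_le_mul_right _ hX
    have h4 : w * X ^ 3 ≤ 4 * S ^ 2 := Nat.le_of_mul_le_mul_left h3 (by omega)
    have h5 : 4 * (X * w) ≤ w * X ^ 3 := by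
      calc 4 * (X * w) = w * (X * 4) := by ring
        _ ≤ w * (X * (X * X)) := by
            gcongr
            nlinarith
        _ = w * X ^ 3 := by ring
    omega
  have hg := growth X K S s r (by omega) hr2 (le_trans (Nat.mul_le_mul_left _ htw) hS3)
  have hQX : Q ≤ X ^ K := by
    refine le_trans ?_ hQ
    calc Q = Q * 1 := by ring
      _ ≤ Q * (4 * w + 4) := Nat.mul_le_mul_left _ (by omega)
  exact (Nat.mul_le_mul_right _ hQX).trans hg

end Vale.Agent.P181.ST.H410
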